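import Vale.Agent.P166.Haar2.Formula

/-!
Moving a law by at most `δ` moves the continued R-transform by at most `δ`, and the variational
value by at most `β / 2 * δ`.
-/

noncomputable section

open MeasureTheory Set Filter
open scoped BigOperators

namespace Vale.Agent.P166.Haar2.Final

open Vale.Agent.P157.Parisi (IsPath)

variable {μ : Measure ℝ} [IsProbabilityMeasure μ]

lemma nonempty_supp (μ : Measure ℝ) [IsProbabilityMeasure μ] : μ.support.Nonempty :=
  Measure.nonempty_support (IsProbabilityMeasure.ne_zero μ)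

lemma ae_le_top (hμ : IsCompact μ.support) : ∀ᵐ l ∂μ, l ≤ sSup μ.support := by
  filter_upwards [Measure.support_mem_ae] with l hl
  exact le_csSup hμ.bddAbove hl

lemma ae_bot_le (hμ : IsCompact μ.support) : ∀ᵐ l ∂μ, sInf μ.support ≤ l := by
  filter_upwards [Measure.support_mem_ae] with l hl
  exact csInf_le hμ.bddBelow hl

lemma bot_le_top (hμ : IsCompact μ.support) : sInf μ.support ≤ sSup μ.support :=
  csInf_le_csSup (nonempty_supp μ) hμ.bddBelow hμ.bddAbove

/-- The set defining `invStieltjes`. -/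
def invSet (μ : Measure ℝ) (x : ℝ) : Set ℝ :=
  {z | sSup μ.support < z ∧ ∫ l, (z - l)⁻¹ ∂μ ≤ x}

lemma invStieltjes_eq (μ : Measure ℝ) (x : ℝ) : invStieltjes μ x = sInf (invSet μ x) := rfl

lemma invSet_bdd (μ : Measure ℝ) (x : ℝ) : BddBelow (invSet μ x) :=
  ⟨sSup μ.support, fun _ hz => hz.1.le⟩

lemma kernel_le (hμ : IsCompact μ.support) {z : ℝ} (hz : sSup μ.support < z) :
    ∫ l, (z - l)⁻¹ ∂μ ≤ (z - sSup μ.support)⁻¹ := by
  calc ∫ l, (z - l)⁻¹ ∂μ ≤ ∫ _, (z - sSup μ.support)⁻¹ ∂μ := by
        refine integral_mono_of_nonneg ?_ (integrable_const _) ?_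
        · filter_upwards [ae_le_top hμ] with l hl
          exact inv_nonneg.2 (by linarith)
        · filter_upwards [ae_le_top hμ] with l hl
          exact inv_anti₀ (sub_pos.2 hz) (by linarith)
    _ = _ := by simp

lemma kernel_integrable (hμ : IsCompact μ.support) {z : ℝ} (hz : sSup μ.support < z) :
    Integrable (fun l => (z - l)⁻¹) μ := by
  refine Integrable.of_bound ((measurable_const.sub measurable_id).inv).aestronglyMeasurable
    (z - sSup μ.support)⁻¹ ?_
  filter_upwards [ae_le_top hμ] with l hl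
  rw [Real.norm_eq_abs, abs_of_nonneg (inv_nonneg.2 (by linarith))]
  exact inv_anti₀ (sub_pos.2 hz) (by linarith)

lemma mem_invSet (hμ : IsCompact μ.support) {x : ℝ} (hx : 0 < x) :
    sSup μ.support + x⁻¹ ∈ invSet μ x := by
  have hi := inv_pos.2 hx
  refine ⟨by linarith, (kernel_le hμ (by linarith)).trans (le_of_eq ?_)⟩
  rw [add_sub_cancel_left, inv_inv]

lemma invStieltjes_le (hμ : IsCompact μ.support) {x : ℝ} (hx : 0 < x) :
    invStieltjes μ x ≤ sSup μ.support + x⁻¹ := csInf_le (invSet_bdd μ x) (mem_invSet hμ hx)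

lemma le_invStieltjes (hμ : IsCompact μ.support) {x : ℝ} (hx : 0 < x) :
    sInf μ.support + x⁻¹ ≤ invStieltjes μ x := by
  refine le_csInf ⟨_, mem_invSet hμ hx⟩ fun z hz => ?_
  have hL : 0 < z - sInf μ.support := by linarith [bot_le_top hμ, hz.1]
  have h : (z - sInf μ.support)⁻¹ ≤ x := by
    refine le_trans ?_ hz.2
    calc (z - sInf μ.support)⁻¹ = ∫ _, (z - sInf μ.support)⁻¹ ∂μ := by simp
      _ ≤ _ := by
        refine integral_mono_ae (integrable_const _) (kernel_integrable hμ hz.1) ?_
        filter_upwards [ae_le_top hμ, ae_bot_le hμ] with l hl hl'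
        exact inv_anti₀ (by linarith [hz.1]) (by linarith)
  linarith [(inv_le_comm₀ hL hx).1 h]

lemma mean_integrable (hμ : IsCompact μ.support) : Integrable (fun l : ℝ => l) μ := by
  refine Integrable.of_mem_Icc (sInf μ.support) (sSup μ.support) measurable_id.aemeasurable ?_
  filter_upwards [ae_le_top hμ, ae_bot_le hμ] with l hl hl'
  exact ⟨hl', hl⟩

lemma RT_mem (hμ : IsCompact μ.support) (x : ℝ) :
    RT μ x ∈ Icc (sInf μ.support) (sSup μ.support) := by
  unfold RT
  split_ifs with h
  · constructor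
    · calc sInf μ.support = ∫ _, sInf μ.support ∂μ := by simp
        _ ≤ _ := integral_mono_ae (integrable_const _) (mean_integrable hμ) (ae_bot_le hμ)
    · calc _ ≤ ∫ _, sSup μ.support ∂μ :=
            integral_mono_ae (mean_integrable hμ) (integrable_const _) (ae_le_top hμ)
        _ = _ := by simp
  · push Not at h
    exact ⟨by linarith [le_invStieltjes hμ h], by linarith [invStieltjes_le hμ h]⟩

lemma invStieltjes_antitoneOn (hμ : IsCompact μ.support) :
    AntitoneOn (invStieltjes μ) (Ioi 0) := fun _ hx _ _ hxy =>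
  csInf_le_csInf (invSet_bdd μ _) ⟨_, mem_invSet hμ hx⟩ fun _ hz => ⟨hz.1, hz.2.trans hxy⟩

lemma measurable_RT (hμ : IsCompact μ.support) : Measurable (RT μ) := by
  refine measurable_of_restrict_of_restrict_compl (measurableSet_Ioi : MeasurableSet (Ioi (0 : ℝ)))
    ?_ ?_
  · have he : (Ioi (0 : ℝ)).domRestrict (RT μ) =
        fun x : Ioi (0 : ℝ) => invStieltjes μ x - (x : ℝ)⁻¹ := by
      funext x
      exact if_neg (not_le.2 x.2)
    have ha : Antitone fun x : Ioi (0 : ℝ) => invStieltjes μ x :=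
      fun x y hxy => invStieltjes_antitoneOn hμ x.2 y.2 hxy
    rw [he]
    exact ha.measurable.sub measurable_subtype_coe.inv
  · have he : (Ioi (0 : ℝ))ᶜ.domRestrict (RT μ) = fun _ => ∫ l, l ∂μ := by
      funext x
      exact if_pos (not_lt.1 fun h => x.2 h)
    rw [he]
    exact measurable_const

lemma integrable_RT (hμ : IsCompact μ.support) {r : ℕ} (β : ℝ) (m : Fin r → ℝ)
    (q : Fin (r + 1) → ℝ) :
    IntervalIntegrable (fun u => RT μ (β * dfun m q u)) volume 0 1 := by
  have hc : Continuous (dfun m q) := by unfold dfun; fun_prop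
  rw [intervalIntegrable_iff]
  have : IsFiniteMeasure (volume.restrict (uIoc (0 : ℝ) 1)) :=
    isFiniteMeasure_restrict.2 (by simp [uIoc])
  exact Integrable.of_mem_Icc (sInf μ.support) (sSup μ.support)
    ((measurable_RT hμ).comp (measurable_const.mul hc.measurable)).aemeasurable
    (ae_of_all _ fun u => RT_mem hμ _)

/-- A coupled pair of laws: the inverse transforms differ by at most `δ`. -/
lemma invStieltjes_coupled (m : Measure ℝ) [IsProbabilityMeasure m] {f g : ℝ → ℝ}
    (hf : Measurable f) (hg : Measurable g) {δ : ℝ} (hfg : ∀ l, g l ≤ f l + δ)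
    (hsf : IsCompact (m.map f).support)
    (htop : sSup (m.map g).support ≤ sSup (m.map f).support + δ) {x : ℝ} (hx : 0 < x) :
    invStieltjes (m.map g) x ≤ invStieltjes (m.map f) x + δ := by
  have : IsProbabilityMeasure (m.map f) := Measure.isProbabilityMeasure_map hf.aemeasurable
  have : IsProbabilityMeasure (m.map g) := Measure.isProbabilityMeasure_map hg.aemeasurable
  rw [← sub_le_iff_le_add]
  refine le_csInf ⟨_, mem_invSet hsf hx⟩ fun z hz => ?_
  rw [sub_le_iff_le_add]
  refine csInf_le (invSet_bdd _ _) ⟨by linarith [hz.1], le_trans ?_ hz.2⟩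
  have hk : ∀ w : ℝ, Measurable fun l : ℝ => (w - l)⁻¹ := fun w =>
    (measurable_const.sub measurable_id).inv
  rw [integral_map hg.aemeasurable (hk _).aestronglyMeasurable,
    integral_map hf.aemeasurable (hk _).aestronglyMeasurable]
  have hae := ae_of_ae_map hf.aemeasurable (ae_le_top hsf)
  refine integral_mono_of_nonneg ?_ ?_ ?_
  · filter_upwards [hae] with l hl
    exact inv_nonneg.2 (by linarith [hfg l, hz.1])
  · exact (integrable_map_measure (hk z).aestronglyMeasurable hf.aemeasurable).1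
      (kernel_integrable hsf hz.1)
  · filter_upwards [hae] with l hl
    exact inv_anti₀ (by linarith [hz.1]) (by linarith [hfg l])

section Map

variable {g : ℝ → ℝ} {δ : ℝ}

lemma map_support_compact (hμ : IsCompact μ.support) (hg : Measurable g)
    (hgd : ∀ l, |g l - l| ≤ δ) :
    IsCompact (μ.map g).support ∧ |sSup (μ.map g).support - sSup μ.support| ≤ δ := by
  have : IsProbabilityMeasure (μ.map g) := Measure.isProbabilityMeasure_map hg.aemeasurable
  have hsub : (μ.map g).support ⊆ Icc (sInf μ.support - δ) (sSup μ.support + δ) := by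
    refine Measure.support_subset_of_isClosed isClosed_Icc ?_
    refine (mem_ae_map_iff hg.aemeasurable measurableSet_Icc).2 ?_
    filter_upwards [ae_le_top hμ, ae_bot_le hμ] with l hl hl'
    obtain ⟨h1, h2⟩ := abs_le.1 (hgd l)
    exact ⟨by linarith, by linarith⟩
  have hc : IsCompact (μ.map g).support :=
    isCompact_Icc.of_isClosed_subset Measure.isClosed_support hsub
  refine ⟨hc, abs_le.2 ⟨?_, ?_⟩⟩
  · have h2 : μ.support ⊆ Iic (sSup (μ.map g).support + δ) := by
      refine Measure.support_subset_of_isClosed isClosed_Iic ?_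
      filter_upwards [ae_of_ae_map hg.aemeasurable (ae_le_top hc)] with l hl
      exact mem_Iic.2 (by linarith [(abs_le.1 (hgd l)).1])
    linarith [csSup_le (nonempty_supp μ) fun l hl => mem_Iic.1 (h2 hl)]
  · linarith [csSup_le (nonempty_supp (μ.map g)) fun l hl => (hsub hl).2]

lemma RT_map_le (hμ : IsCompact μ.support) (hg : Measurable g) (hgd : ∀ l, |g l - l| ≤ δ)
    (x : ℝ) : |RT (μ.map g) x - RT μ x| ≤ δ := by
  obtain ⟨hc, htop⟩ := map_support_compact hμ hg hgd
  have : IsProbabilityMeasure (μ.map g) := Measure.isProbabilityMeasure_map hg.aemeasurable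
  unfold RT
  split_ifs with h
  · have i1 : Integrable g μ :=
      (integrable_map_measure (f := g) (g := fun l : ℝ => l) aestronglyMeasurable_id
        hg.aemeasurable).1 (mean_integrable hc)
    rw [integral_map (f := fun l : ℝ => l) hg.aemeasurable aestronglyMeasurable_id,
      ← integral_sub i1 (mean_integrable hμ)]
    refine (abs_integral_le_integral_abs).trans ?_
    calc ∫ l, |g l - l| ∂μ ≤ ∫ _, δ ∂μ :=
          integral_mono_of_nonneg (ae_of_all _ fun _ => abs_nonneg _) (integrable_const _)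
            (ae_of_all _ hgd)
      _ = δ := by simp
  · push Not at h
    obtain ⟨ht1, ht2⟩ := abs_le.1 htop
    have hid : IsCompact (μ.map fun l => l).support := by rwa [Measure.map_id']
    have h1 := invStieltjes_coupled μ measurable_id' hg (δ := δ)
      (fun l => by linarith [(abs_le.1 (hgd l)).2]) hid
      (by rw [Measure.map_id']; linarith) h
    have h2 := invStieltjes_coupled μ hg measurable_id' (δ := δ)
      (fun l => by linarith [(abs_le.1 (hgd l)).1]) hc
      (by rw [Measure.map_id']; linarith) h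
    rw [Measure.map_id'] at h1 h2
    exact abs_le.2 ⟨by linarith, by linarith⟩

end Map

lemma funG_dist {ν : Measure ℝ} [IsProbabilityMeasure ν] (hμ : IsCompact μ.support)
    (hν : IsCompact ν.support) {δ β : ℝ} (hβ : 0 ≤ β) (h : ∀ x, |RT ν x - RT μ x| ≤ δ) {r : ℕ}
    (m : Fin r → ℝ) (q : Fin (r + 1) → ℝ) :
    |funG β ν m q - funG β μ m q| ≤ β / 2 * δ := by
  unfold funG
  rw [← mul_sub, ← intervalIntegral.integral_sub (integrable_RT hν β m q) (integrable_RT hμ β m q),
    abs_mul, abs_of_nonneg (by linarith : 0 ≤ β / 2)]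
  refine mul_le_mul_of_nonneg_left ?_ (by linarith)
  have := intervalIntegral.norm_integral_le_of_norm_le_const (a := (0 : ℝ)) (b := 1)
    (C := δ) (f := fun u => RT ν (β * dfun m q u) - RT μ (β * dfun m q u))
    fun u _ => (Real.norm_eq_abs _).trans_le (h _)
  rw [Real.norm_eq_abs, sub_zero, abs_one, mul_one] at this
  exact this

lemma upperValues_shift {μ₁ μ₂ : Measure ℝ} {β e : ℝ}
    (h : ∀ (r : ℕ) (m : Fin r → ℝ) (q : Fin (r + 1) → ℝ),
      funG β μ₂ m q ≤ funG β μ₁ m q + e) {v : ℝ} (hv : v ∈ upperValues β μ₁) :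
    v + e ∈ upperValues β μ₂ := by
  obtain ⟨r, m, q, hp, hq⟩ := hv
  exact ⟨r, m, q, hp, fun ρ hρ => by linarith [hq ρ hρ, h r m q]⟩

/-- The variational values of two nearby laws. -/
lemma ell_dist {μ₁ μ₂ : Measure ℝ} {β e : ℝ} (hn : (upperValues β μ₁).Nonempty)
    (hb : BddBelow (upperValues β μ₁))
    (h : ∀ (r : ℕ) (m : Fin r → ℝ) (q : Fin (r + 1) → ℝ),
      |funG β μ₁ m q - funG β μ₂ m q| ≤ e) :
    (upperValues β μ₂).Nonempty ∧ BddBelow (upperValues β μ₂) ∧
      |ell β μ₁ - ell β μ₂| ≤ e := by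
  have h12 : ∀ r m q, funG β μ₂ (r := r) m q ≤ funG β μ₁ m q + e :=
    fun r m q => by linarith [(abs_le.1 (h r m q)).1]
  have h21 : ∀ r m q, funG β μ₁ (r := r) m q ≤ funG β μ₂ m q + e :=
    fun r m q => by linarith [(abs_le.1 (h r m q)).2]
  obtain ⟨v₀, hv₀⟩ := hn
  obtain ⟨c, hc⟩ := hb
  have hn2 : (upperValues β μ₂).Nonempty := ⟨_, upperValues_shift h12 hv₀⟩
  have hb2 : BddBelow (upperValues β μ₂) :=
    ⟨c - e, fun v hv => by linarith [hc (upperValues_shift h21 hv)]⟩
  refine ⟨hn2, hb2, abs_le.2 ⟨?_, ?_⟩⟩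
  · have : ell β μ₂ - e ≤ ell β μ₁ := le_csInf ⟨v₀, hv₀⟩ fun v hv => by
      linarith [csInf_le hb2 (upperValues_shift h12 hv),
        show ell β μ₂ = sInf (upperValues β μ₂) from rfl]
    linarith
  · have : ell β μ₁ - e ≤ ell β μ₂ := le_csInf hn2 fun v hv => by
      linarith [csInf_le ⟨c, hc⟩ (upperValues_shift h21 hv),
        show ell β μ₁ = sInf (upperValues β μ₁) from rfl]
    linarith

end Vale.Agent.P166.Haar2.Final
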