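import Vale.Agent.P166.Haar2.Alg
import Vale.Agent.P166.Haar2.Sys
import Vale.Agent.P166.Seq
import Vale.Agent.P166.Haar2.Final.Shift

/-!
The sequence of quantiles of a compactly supported law, and its atoms on a grid.
-/

noncomputable section

open MeasureTheory ProbabilityTheory Set Filter
open scoped BigOperators Topology BoundedContinuousFunction

namespace Vale.Agent.P166.Haar2.Final

variable (μ : Measure ℝ) [IsProbabilityMeasure μ]

/-- The quantile at level `p`. -/
def quant (p : ℝ) : ℝ := sInf {t | p ≤ cdf μ t}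

/-- The sequence of quantiles. -/
def qseq (N : ℕ) (i : Fin N) : ℝ := quant μ ((i.val + 1 : ℝ) / N)

variable {μ} (hμ : IsCompact μ.support)

include hμ in
lemma cdf_top : cdf μ (sSup μ.support) = 1 := by
  rw [cdf_eq_real, measureReal_def, (prob_compl_eq_zero_iff measurableSet_Iic).1,
    ENNReal.toReal_one]
  exact ae_iff.1 (ae_le_top hμ)

include hμ in
lemma cdf_low {t : ℝ} (ht : t < sInf μ.support) : cdf μ t = 0 := by
  rw [cdf_eq_real, measureReal_def, ENNReal.toReal_eq_zero_iff]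
  refine Or.inl (measure_mono_null (fun l hl => ?_) (ae_iff.1 (ae_bot_le hμ)))
  exact fun h => (lt_irrefl t) (ht.trans_le (h.trans hl))

include hμ in
lemma quant_le_iff {p : ℝ} (hp : 0 < p) (hp1 : p ≤ 1) (t : ℝ) :
    quant μ p ≤ t ↔ p ≤ cdf μ t := by
  set S := {t | p ≤ cdf μ t}
  have hne : S.Nonempty :=
    ⟨sSup μ.support, show p ≤ cdf μ (sSup μ.support) from (cdf_top hμ).symm ▸ hp1⟩
  have hb : BddBelow S := ⟨sInf μ.support, fun s hs => by
    by_contra h
    have h' : p ≤ cdf μ s := hs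
    rw [cdf_low hμ (not_le.1 h)] at h'
    linarith⟩
  refine ⟨fun h => le_trans ?_ (monotone_cdf μ h), fun h => csInf_le hb h⟩
  refine ge_of_tendsto (((cdf μ).right_continuous (sInf S)).tendsto.mono_left
    (nhdsWithin_mono _ Ioi_subset_Ici_self)) ?_
  filter_upwards [self_mem_nhdsWithin] with y hy
  obtain ⟨s, hs, hsy⟩ := exists_lt_of_csInf_lt hne hy
  exact le_trans hs (monotone_cdf μ hsy.le)

lemma level_mem {N : ℕ} (i : Fin N) :
    0 < (i.val + 1 : ℝ) / N ∧ (i.val + 1 : ℝ) / N ≤ 1 := by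
  have hN : (0 : ℝ) < N := Nat.cast_pos.2 i.pos
  exact ⟨by positivity, (div_le_one hN).2 (by exact_mod_cast i.isLt)⟩

include hμ in
lemma qseq_le_iff {N : ℕ} (i : Fin N) (t : ℝ) :
    qseq μ N i ≤ t ↔ (i.val + 1 : ℝ) / N ≤ cdf μ t :=
  quant_le_iff hμ (level_mem i).1 (level_mem i).2 t

include hμ in
lemma qseq_mem {N : ℕ} (i : Fin N) : qseq μ N i ∈ Icc (sInf μ.support) (sSup μ.support) := by
  refine ⟨le_of_forall_lt fun t ht => lt_of_not_ge fun h => ?_, ?_⟩
  · rw [qseq_le_iff hμ, cdf_low hμ ht] at h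
    linarith [(level_mem i).1]
  · rw [qseq_le_iff hμ, cdf_top hμ]
    exact (level_mem i).2

include hμ in
lemma count_qseq (N : ℕ) (t : ℝ) :
    (Finset.univ.filter fun i : Fin N => qseq μ N i ≤ t).card = ⌊(N : ℝ) * cdf μ t⌋₊ := by
  rcases Nat.eq_zero_or_pos N with rfl | hN
  · simp
  have hN' : (0 : ℝ) < N := Nat.cast_pos.2 hN
  have h0 : 0 ≤ (N : ℝ) * cdf μ t := mul_nonneg hN'.le (cdf_nonneg μ t)
  have hle : ⌊(N : ℝ) * cdf μ t⌋₊ ≤ N := by
    have h1 := mul_le_mul_of_nonneg_left (cdf_le_one μ t) hN'.le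
    rw [mul_one] at h1
    calc _ ≤ ⌊(N : ℝ)⌋₊ := Nat.floor_le_floor h1
      _ = N := Nat.floor_natCast N
  have he : (Finset.univ.filter fun i : Fin N => qseq μ N i ≤ t) =
      Finset.univ.filter fun i : Fin N => i.val < ⌊(N : ℝ) * cdf μ t⌋₊ := by
    ext i
    simp only [Finset.mem_filter, Finset.mem_univ, true_and]
    rw [qseq_le_iff hμ, div_le_iff₀' hN', ← Nat.add_one_le_iff, Nat.le_floor_iff h0]
    push_cast
    rfl
  rw [he, Fin.card_filter_val_lt]
  omega

include hμ in
lemma frac_qseq (t : ℝ) : Tendsto (fun N : ℕ =>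
    ((Finset.univ.filter fun i : Fin N => qseq μ N i ≤ t).card : ℝ) / N) atTop
    (𝓝 (cdf μ t)) := by
  simp only [count_qseq hμ, mul_comm _ (cdf μ t)]
  exact (tendsto_nat_floor_mul_div_atTop (cdf_nonneg μ t)).comp tendsto_natCast_atTop_atTop

lemma cdf_sub {s t : ℝ} (h : s ≤ t) : cdf μ t - cdf μ s = μ.real (Ioc s t) := by
  rw [cdf_eq_real, cdf_eq_real, ← Iic_sdiff_Iic,
    measureReal_sdiff (Iic_subset_Iic.2 h) measurableSet_Iic]

include hμ in
lemma frac_qseq_Ioc {s t : ℝ} (h : s ≤ t) : Tendsto (fun N : ℕ =>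
    ((Finset.univ.filter fun i : Fin N => qseq μ N i ∈ Ioc s t).card : ℝ) / N) atTop
    (𝓝 (μ.real (Ioc s t))) := by
  rw [← cdf_sub h]
  refine ((frac_qseq hμ t).sub (frac_qseq hμ s)).congr fun N => ?_
  have e : (Finset.univ.filter fun i : Fin N => qseq μ N i ≤ s).card +
      (Finset.univ.filter fun i : Fin N => qseq μ N i ∈ Ioc s t).card =
      (Finset.univ.filter fun i : Fin N => qseq μ N i ≤ t).card := by
    rw [← Finset.card_union_of_disjoint]
    · congr 1
      ext i
      simp only [Finset.mem_union, Finset.mem_filter, Finset.mem_univ, true_and, mem_Ioc]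
      refine ⟨fun hi => hi.elim (fun a => a.trans h) And.right, fun hi => ?_⟩
      exact (le_or_gt (qseq μ N i) s).imp id fun a => ⟨a, hi⟩
    · exact Finset.disjoint_filter.2 fun i _ hi hi' => (not_lt.2 hi) hi'.1
  rw [← e, Nat.cast_add, ← sub_div, add_sub_cancel_left]

include hμ in
lemma pos_of_qseq_mem {s t : ℝ} {N : ℕ} {i : Fin N} (hi : qseq μ N i ∈ Ioc s t) :
    0 < μ.real (Ioc s t) := by
  rw [← cdf_sub (hi.1.trans_le hi.2).le, sub_pos]
  refine lt_of_lt_of_le (lt_of_not_ge fun h => ?_) ((qseq_le_iff hμ i t).1 hi.2)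
  exact (not_le.2 hi.1) ((qseq_le_iff hμ i s).2 h)

/-- Rounding up to the grid of mesh `δ`. -/
def round' (δ x : ℝ) : ℝ := δ * ⌈x / δ⌉

lemma measurable_round' (δ : ℝ) : Measurable (round' δ) :=
  measurable_const.mul ((measurable_from_top (f := fun k : ℤ => (k : ℝ))).comp
    (Int.measurable_ceil.comp (measurable_id.div_const δ)))

lemma round'_near {δ : ℝ} (hδ : 0 < δ) (x : ℝ) : |round' δ x - x| ≤ δ := by
  have e : round' δ x - x = δ * (⌈x / δ⌉ - x / δ) := by
    unfold round'; field_simp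
  rw [e, abs_le]
  have h1 := Int.le_ceil (x / δ)
  have h2 := Int.ceil_lt_add_one (x / δ)
  constructor <;> nlinarith

lemma round'_eq_iff {δ : ℝ} (hδ : 0 < δ) (x : ℝ) (k : ℤ) :
    round' δ x = δ * k ↔ x ∈ Ioc (δ * (k - 1)) (δ * k) := by
  rw [round', mul_right_inj' hδ.ne', Int.cast_inj, Int.ceil_eq_iff, mem_Ioc,
    lt_div_iff₀' hδ, div_le_iff₀' hδ]

include hμ in
/-- Atoms on the grid carrying the rounded law, realised by the rounded quantiles. -/
theorem exists_grid {δ : ℝ} (hδ : 0 < δ) :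
    ∃ (K : ℕ) (A : Atoms K) (w : (N : ℕ) → Fin N → Fin (K + 1)),
      A.law = μ.map (round' δ) ∧
      (∀ N i, A.a (w N i) = round' δ (qseq μ N i)) ∧
      ∀ k, Tendsto (fun N => frac (w N) k) atTop (𝓝 (A.c k)) := by
  classical
  have hg := measurable_round' δ
  set ν := μ.map (round' δ) with hν
  have : IsProbabilityMeasure ν := Measure.isProbabilityMeasure_map hg.aemeasurable
  set T₀ : Finset ℝ :=
    (Finset.Icc ⌈sInf μ.support / δ⌉ ⌈sSup μ.support / δ⌉).image fun k : ℤ => δ * k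
  set T := T₀.filter fun a => 0 < ν.real {a} with hT
  have hmem₀ : ∀ x ∈ Icc (sInf μ.support) (sSup μ.support), round' δ x ∈ T₀ := fun x hx =>
    Finset.mem_image.2 ⟨⌈x / δ⌉, Finset.mem_Icc.2
      ⟨Int.ceil_le_ceil (div_le_div_of_nonneg_right hx.1 hδ.le),
        Int.ceil_le_ceil (div_le_div_of_nonneg_right hx.2 hδ.le)⟩, rfl⟩
  have hreal : ∀ k : ℤ, ν.real {δ * (k : ℝ)} = μ.real (Ioc (δ * ((k : ℝ) - 1)) (δ * k)) := by
    intro k
    rw [hν, map_measureReal_apply hg (measurableSet_singleton _)]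
    congr 1
    ext x
    exact round'_eq_iff hδ x k
  have hmem : ∀ N (i : Fin N), round' δ (qseq μ N i) ∈ T := fun N i => by
    refine Finset.mem_filter.2 ⟨hmem₀ _ (qseq_mem hμ i), ?_⟩
    change 0 < ν.real {δ * ((⌈qseq μ N i / δ⌉ : ℤ) : ℝ)}
    rw [hreal]
    exact pos_of_qseq_mem hμ ((round'_eq_iff hδ (qseq μ N i) _).1 rfl)
  have hnull : ν (↑T : Set ℝ)ᶜ = 0 := by
    have h0 : ν (↑T₀ : Set ℝ)ᶜ = 0 := by
      rw [hν, Measure.map_apply hg T₀.measurableSet.compl]
      refine measure_mono_null (t := μ.supportᶜ) (fun x hx hs => hx (hmem₀ x ?_))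
        Measure.measure_compl_support
      exact ⟨csInf_le hμ.bddBelow hs, le_csSup hμ.bddAbove hs⟩
    refine measure_mono_null (fun a ha => ?_) (measure_union_null h0
      ((measure_biUnion_null_iff (s := fun a : ℝ => ({a} : Set ℝ))
        (T₀.filter fun a => ¬ 0 < ν.real {a}).countable_toSet).2 fun a ha => ?_))
    · by_cases h : a ∈ T₀
      · refine Or.inr (mem_biUnion (Finset.mem_filter.2 ⟨h, fun hp => ha ?_⟩) rfl)
        exact Finset.mem_filter.2 ⟨h, hp⟩
      · exact Or.inl h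
    · have := (Finset.mem_filter.1 ha).2
      exact (measureReal_eq_zero_iff).1 (le_antisymm (not_lt.1 this) measureReal_nonneg)
  have hne : T.Nonempty := ⟨_, hmem 1 0⟩
  obtain ⟨K, hK⟩ : ∃ K, T.card = K + 1 := ⟨T.card - 1, by have := hne.card_pos; omega⟩
  set e := T.orderIsoOfFin hK with he
  have hsum : ∀ s : Set ℝ, MeasurableSet s →
      ν s = ∑ k, ν {(e k : ℝ)} * s.indicator 1 (e k : ℝ) := by
    intro s hs
    have h1 : ν s = ν (s ∩ ↑T) := (measure_inter_conull hnull).symm
    have h2 : s ∩ ↑T = (↑(T.filter fun a => a ∈ s) : Set ℝ) := by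
      ext a; simp [and_comm]
    rw [h1, h2, ← sum_measure_singleton, Finset.sum_filter, ← Finset.sum_coe_sort T,
      ← Equiv.sum_comp e.toEquiv]
    refine Finset.sum_congr rfl fun k _ => ?_
    by_cases h : (e k : ℝ) ∈ s <;> simp [h]
  let A : Atoms K :=
    { a := fun k => (e k : ℝ)
      c := fun k => ν.real {(e k : ℝ)}
      mono := fun _ _ h => e.strictMono h
      pos := fun k => (Finset.mem_filter.1 (e k).2).2
      sum_one := by
        have h := hsum univ MeasurableSet.univ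
        simp only [measure_univ, indicator_univ, Pi.one_apply, mul_one] at h
        simp only [measureReal_def]
        rw [← ENNReal.toReal_sum fun k _ => measure_ne_top _ _, ← h, ENNReal.toReal_one] }
  refine ⟨K, A, fun N i => e.symm ⟨_, hmem N i⟩, ?_, fun N i => ?_, fun k => ?_⟩
  · ext s hs
    rw [Atoms.law, hsum s hs, Measure.finsetSum_apply]
    refine Finset.sum_congr rfl fun k _ => ?_
    rw [Measure.smul_apply, Measure.dirac_apply' _ hs, smul_eq_mul]
    simp only [A]
    rw [measureReal_def, ENNReal.ofReal_toReal (measure_ne_top ν _)]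
  · simp [A]
  · obtain ⟨j, -, hj⟩ := Finset.mem_image.1 (Finset.mem_filter.1 (e k).2).1
    have hle : δ * ((j : ℝ) - 1) ≤ δ * j := by nlinarith
    have hlim := frac_qseq_Ioc hμ hle
    rw [← hreal] at hlim
    replace hlim : Tendsto (fun N : ℕ =>
        ((Finset.univ.filter fun i : Fin N =>
          qseq μ N i ∈ Ioc (δ * ((j : ℝ) - 1)) (δ * j)).card : ℝ) / N) atTop
        (𝓝 (ν.real {(e k : ℝ)})) := by rw [← hj]; exact hlim
    refine hlim.congr fun N => ?_
    simp only [frac]
    congr 3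
    ext i
    simp only [Finset.mem_filter, Finset.mem_univ, true_and]
    rw [← round'_eq_iff hδ, hj, OrderIso.symm_apply_eq, Subtype.ext_iff]

lemma integral_law {K : ℕ} (A : Atoms K) (f : ℝ → ℝ) :
    ∫ x, f x ∂A.law = ∑ k, A.c k * f (A.a k) := by
  rw [Atoms.law, integral_finsetSum_measure]
  · exact Finset.sum_congr rfl fun k _ => by
      rw [integral_smul_measure, integral_dirac, smul_eq_mul,
        ENNReal.toReal_ofReal (A.pos k).le]
  · exact fun k _ => (integrable_dirac enorm_lt_top).smul_measure ENNReal.ofReal_ne_top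

lemma sum_comp_label {N K : ℕ} (w : Fin N → Fin (K + 1)) (v : Fin (K + 1) → ℝ) :
    (∑ i, v (w i)) / (N : ℝ) = ∑ k, frac w k * v k := by
  rw [← Finset.sum_fiberwise' (Finset.univ : Finset (Fin N)) w v, Finset.sum_div]
  refine Finset.sum_congr rfl fun k _ => ?_
  rw [Finset.sum_const, nsmul_eq_mul, frac]
  ring

include hμ in
/-- The quantiles are admissible. -/
theorem qseq_admissible : Admissible μ (qseq μ) := by
  refine ⟨fun f => ?_, fun ε hε => Eventually.of_forall fun N i => by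
    linarith [(qseq_mem hμ i).2], sInf μ.support, Eventually.of_forall fun N i =>
    (qseq_mem hμ i).1⟩
  rw [Metric.tendsto_nhds]
  intro η hη
  obtain ⟨d, hd, hf⟩ := Metric.uniformContinuousOn_iff.1
    ((isCompact_Icc (a := sInf μ.support - 1) (b := sSup μ.support + 1)
      ).uniformContinuousOn_of_continuous f.continuous.continuousOn) (η / 4) (by linarith)
  set δ := min 1 (d / 2)
  have hδ : 0 < δ := lt_min one_pos (by linarith)
  have hδ1 : δ ≤ 1 := min_le_left _ _
  have hδd : δ ≤ d / 2 := min_le_right _ _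
  have hclose : ∀ x ∈ Icc (sInf μ.support) (sSup μ.support),
      |f (round' δ x) - f x| ≤ η / 4 := by
    intro x hx
    obtain ⟨h1, h2⟩ := abs_le.1 (round'_near hδ x)
    exact (hf _ ⟨by linarith [hx.1], by linarith [hx.2]⟩ _
      ⟨by linarith [hx.1], by linarith [hx.2]⟩
      (by rw [Real.dist_eq, abs_lt]; constructor <;> linarith)).le
  obtain ⟨K, A, w, hlaw, ha, hc⟩ := exists_grid hμ hδ
  have hgoal : |∫ x, f (round' δ x) ∂μ - ∫ x, f x ∂μ| ≤ η / 4 := by
    have i1 : Integrable (fun x => f (round' δ x)) μ :=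
      Integrable.of_bound (f.continuous.measurable.comp
        (measurable_round' δ)).aestronglyMeasurable ‖f‖ (ae_of_all _ fun x => f.norm_coe_le_norm _)
    rw [← integral_sub i1 (f.integrable μ)]
    refine abs_integral_le_integral_abs.trans ?_
    calc _ ≤ ∫ _, η / 4 ∂μ := integral_mono_of_nonneg (ae_of_all _ fun _ => abs_nonneg _)
          (integrable_const _) (by
            filter_upwards [ae_le_top hμ, ae_bot_le hμ] with x hx hx'
            exact hclose x ⟨hx', hx⟩)
      _ = _ := by simp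
  have hlim : Tendsto (fun N => (∑ i, f (round' δ (qseq μ N i))) / (N : ℝ)) atTop
      (𝓝 (∫ x, f (round' δ x) ∂μ)) := by
    have h1 : ∫ x, f (round' δ x) ∂μ = ∑ k, A.c k * f (A.a k) := by
      rw [← integral_law, hlaw, integral_map (measurable_round' δ).aemeasurable
        f.continuous.aestronglyMeasurable]
    rw [h1]
    refine (tendsto_finsetSum Finset.univ fun k _ => (hc k).mul_const (f (A.a k))).congr
      fun N => ?_
    rw [← sum_comp_label]
    simp only [ha]
  filter_upwards [Metric.tendsto_nhds.1 hlim (η / 4) (by linarith), eventually_gt_atTop 0]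
    with N h1 hN
  have hNr : (0 : ℝ) < N := Nat.cast_pos.2 hN
  have h2 : |(∑ i, f (qseq μ N i)) / (N : ℝ) - (∑ i, f (round' δ (qseq μ N i))) / (N : ℝ)| ≤
      η / 4 := by
    rw [← sub_div, abs_div, abs_of_pos hNr, div_le_iff₀ hNr, ← Finset.sum_sub_distrib]
    refine (Finset.abs_sum_le_sum_abs _ _).trans ?_
    calc _ ≤ ∑ _i : Fin N, η / 4 := Finset.sum_le_sum fun i _ => by
          rw [abs_sub_comm]; exact hclose _ (qseq_mem hμ i)
      _ = η / 4 * N := by simp [mul_comm]
  rw [Real.dist_eq] at h1 ⊢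
  rw [abs_le] at h2 hgoal
  rw [abs_lt] at h1 ⊢
  constructor <;> linarith

end Vale.Agent.P166.Haar2.Final
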