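import Vale.Agent.P166.Haar2.Statements
import Vale.Agent.P166.Haar2.Final.Grid

/-!
From finitely many atoms to every compactly supported law.
-/

noncomputable section

open MeasureTheory Set Filter
open scoped BigOperators Topology

namespace Vale.Agent.P166.Haar2.Final

variable {N : ℕ}

lemma pressure_smul (β : ℝ) (lam : Fin N → ℝ) (U : OG N) :
    pressure β lam U = pressure 1 (fun i => β * lam i) U := by
  have e : ∀ s, β / 2 * en lam U s = 1 / 2 * en (fun i => β * lam i) U s := fun s => by
    simp only [en_eq, Finset.mul_sum]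
    exact Finset.sum_congr rfl fun i _ => by ring
  simp only [pressure_eq, part, e]

lemma pressure_sup_le {β δ : ℝ} (hβ : 0 ≤ β) (hN : 0 < N) {l l' : Fin N → ℝ}
    (h : ∀ i, |l' i - l i| ≤ δ) (U : OG N) :
    pressure β l' U - pressure β l U ≤ β / 2 * δ := by
  refine (pressure_tangent β l l' U U).trans ?_
  have hs : ∀ s, en l' U s - en l U s ≤ δ * N := fun s => by
    have hd := act_dot U (spin s) (spin s)
    rw [spin_dot] at hd
    rw [en_eq, en_eq, ← Finset.sum_sub_distrib]
    calc _ ≤ ∑ i, δ * act U (spin s) i ^ 2 := Finset.sum_le_sum fun i _ => by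
          rw [← sub_mul]
          exact mul_le_mul_of_nonneg_right ((le_abs_self _).trans (h i)) (sq_nonneg _)
      _ = δ * N := by rw [← Finset.mul_sum, ← hd]; simp [dotProduct, sq]
  have h1 := mul_le_mul_of_nonneg_left
    ((gib_mono β l' U hs).trans (gib_const β l' U (δ * N)).le)
    (by positivity : 0 ≤ β / 2 / (N : ℝ))
  refine h1.trans (le_of_eq ?_)
  have : (N : ℝ) ≠ 0 := by positivity
  field_simp

lemma meanP_sup_le {β δ : ℝ} (hβ : 0 ≤ β) (hN : 0 < N) {l l' : Fin N → ℝ}
    (h : ∀ i, |l' i - l i| ≤ δ) : |meanP β l' - meanP β l| ≤ β / 2 * δ := by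
  have h' : ∀ i, |l i - l' i| ≤ δ := fun i => by rw [abs_sub_comm]; exact h i
  unfold meanP
  rw [← integral_sub (integrable_cont (continuous_pressure β l'))
    (integrable_cont (continuous_pressure β l))]
  refine abs_integral_le_integral_abs.trans ?_
  calc _ ≤ ∫ _, β / 2 * δ ∂orthHaar N := integral_mono_of_nonneg
        (ae_of_all _ fun _ => abs_nonneg _) (integrable_const _) (ae_of_all _ fun U =>
          abs_sub_le_iff.2 ⟨pressure_sup_le hβ hN h U, pressure_sup_le hβ hN h' U⟩)
    _ = _ := by simp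

variable {μ : Measure ℝ} [IsProbabilityMeasure μ]

/-- Atoms within `δ` of the law, with the formula. -/
theorem approx (hA : AtomsFormulaStmt) (hT : TransformStmt) {β : ℝ} (hβ : 0 < β)
    (hμ : IsCompact μ.support) {δ : ℝ} (hδ : 0 < δ) :
    (upperValues β μ).Nonempty ∧ BddBelow (upperValues β μ) ∧
      ∀ᶠ N in atTop, |meanP β (qseq μ N) - ell β μ| ≤ β * δ + δ := by
  obtain ⟨K, A, w, hlaw, ha, hc⟩ := exists_grid hμ hδ
  have hg := measurable_round' δ
  obtain ⟨hn, hb, hlim⟩ := hA K (A.scale β hβ)
  have hU : upperValues β A.law = (A.scale β hβ).upperValuesA := by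
    ext v
    constructor <;> rintro ⟨r, m, q, hp, h⟩ <;> refine ⟨r, m, q, hp, fun ρ hρ => ?_⟩ <;>
      have := hT K A β hβ r m q hp <;> linarith [h ρ hρ]
  have hell : ell β A.law = sInf (A.scale β hβ).upperValuesA := by rw [ell, hU]
  obtain ⟨hcs, -⟩ := map_support_compact hμ hg (round'_near hδ)
  have : IsProbabilityMeasure (μ.map (round' δ)) :=
    Measure.isProbabilityMeasure_map hg.aemeasurable
  have hfun : ∀ (r : ℕ) (m : Fin r → ℝ) (q : Fin (r + 1) → ℝ),
      |funG β A.law m q - funG β μ m q| ≤ β / 2 * δ := fun r m q => by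
    rw [hlaw]
    exact funG_dist hμ hcs hβ.le (RT_map_le hμ hg (round'_near hδ)) m q
  obtain ⟨hn2, hb2, he⟩ := ell_dist (hU.symm ▸ hn) (hU.symm ▸ hb) hfun
  refine ⟨hn2, hb2, ?_⟩
  have ht := hlim (fun N => N) w tendsto_id hc
  filter_upwards [Metric.tendsto_nhds.1 ht δ hδ, eventually_gt_atTop 0] with N h1 hN
  have h2 : |meanP β (qseq μ N) - meanP β (fun i => A.a (w N i))| ≤ β / 2 * δ :=
    meanP_sup_le hβ.le hN fun i => by rw [ha, abs_sub_comm]; exact round'_near hδ _
  have h3 : meanP β (fun i => A.a (w N i)) = meanP 1 (fun i => (A.scale β hβ).a (w N i)) := by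
    simp only [meanP, pressure_smul β, Atoms.scale]
  rw [Real.dist_eq, ← h3, ← hell] at h1
  rw [abs_le] at he h2 ⊢
  obtain ⟨h1a, h1b⟩ := abs_lt.1 h1
  constructor <;> linarith

theorem meanP_tendsto (hA : AtomsFormulaStmt) (hT : TransformStmt) {β : ℝ} (hβ : 0 < β)
    (hμ : IsCompact μ.support) {lam : ∀ N, Fin N → ℝ} (h : Admissible μ lam) :
    Tendsto (fun N => meanP β (lam N)) atTop (𝓝 (ell β μ)) := by
  have hq : Tendsto (fun N => meanP β (qseq μ N)) atTop (𝓝 (ell β μ)) := by
    rw [Metric.tendsto_nhds]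
    intro ε hε
    have hd : 0 < ε / (2 * (β + 1)) := by positivity
    filter_upwards [(approx hA hT hβ hμ hd).2.2] with N hN
    rw [Real.dist_eq]
    refine hN.trans_lt ?_
    rw [← add_one_mul, ← mul_div_assoc, div_lt_iff₀ (by positivity)]
    nlinarith
  simpa using (meanP_universal hβ.le hμ h (qseq_admissible hμ)).add hq

end Vale.Agent.P166.Haar2.Final

namespace Vale.Agent.P166.Haar2

/-- The formula for every compactly supported law, given the formula for atoms. -/
theorem final : AtomsFormulaStmt → TransformStmt → FinalStmt := by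
  intro hA hT β hβ μ hμp hμ
  have h1 := Final.approx hA hT hβ hμ one_pos
  refine ⟨h1.1, h1.2.1, fun lam h => ?_⟩
  obtain ⟨c, hc⟩ := self_averaging β hβ.le μ hμ
  have hS := hc lam h
  have hM := Final.meanP_tendsto hA hT hβ hμ h
  have hlim : Tendsto (fun N => 2 * (∫ U, |pressure β (lam N) U - c N| ∂orthHaar N) +
      |meanP β (lam N) - ell β μ|) atTop (𝓝 0) := by
    simpa using (hS.const_mul 2).add (hM.sub_const (ell β μ)).abs
  refine squeeze_zero (fun N => integral_nonneg fun U => abs_nonneg _) (fun N => ?_) hlim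
  have hf := continuous_pressure β (lam N)
  have hi : Integrable (fun U => |pressure β (lam N) U - c N|) (orthHaar N) :=
    integrable_cont (hf.sub continuous_const).abs
  have h2 : |meanP β (lam N) - c N| ≤ ∫ U, |pressure β (lam N) U - c N| ∂orthHaar N := by
    refine le_trans (le_of_eq ?_) abs_integral_le_integral_abs
    rw [integral_sub (integrable_cont hf) (integrable_const _)]
    simp [meanP]
  have h3 : |c N - ell β μ| ≤ |meanP β (lam N) - c N| + |meanP β (lam N) - ell β μ| := by
    rw [abs_sub_comm (meanP β (lam N)) (c N)]; exact abs_sub_le _ _ _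
  calc ∫ U, |pressure β (lam N) U - ell β μ| ∂orthHaar N
      ≤ ∫ U, (|pressure β (lam N) U - c N| + |c N - ell β μ|) ∂orthHaar N :=
        integral_mono (integrable_cont (hf.sub continuous_const).abs)
          (hi.add (integrable_const _)) fun U => abs_sub_le _ _ _
    _ = (∫ U, |pressure β (lam N) U - c N| ∂orthHaar N) + |c N - ell β μ| := by
        rw [integral_add hi (integrable_const _)]; simp
    _ ≤ _ := by linarith

end Vale.Agent.P166.Haar2
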